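import Vale.Agent.P064.Greedy

/-!
The peeling with a threshold below one: a block stays live while it has fewer than `E` edges and
its weight is at most `τ`. No hypothesis on the small pattern weights is needed.
-/

namespace Vale.Agent.P064.Up

open Finset Vale.Agent.P064 Vale.Agent.P064.Blk

variable {n w : ℕ}

/-- The invariant of the peeling at threshold `τ`. -/
structure InvUp (H0 : Finset (Sym2 (Fin n))) (q : ℝ) (E D : ℕ) (τ : ℝ) (st : St n) : Prop where
  idem : ∀ x, st.root (st.root x) = st.root x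
  fresh : ∀ x ∈ st.U, st.root x = x ∧ st.ed x = ∅ ∧ st.tm x = n
  old : ∀ x ∉ st.U, st.root x ∉ st.U ∧ st.tm x < n - st.U.card ∧ st.tm x ≤ st.tm (st.root x)
  tminj : ∀ x ∉ st.U, ∀ y ∉ st.U, st.tm x = st.tm y → x = y
  sub : ∀ r, st.ed r ⊆ H0
  edge : ∀ r x y, s(x, y) ∈ st.ed r →
    (st.root x = r ∧ (st.root y = r ∨ st.tm r < st.tm y)) ∨
      (st.root y = r ∧ (st.root x = r ∨ st.tm r < st.tm x))
  size : ∀ r ∉ st.U, st.root r = r → (st.verts r).card ≤ (st.inner r).card + 1
  conn : ∀ x, Relation.ReflTransGen st.Intra x (st.root x)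
  liveRoot : ∀ L ∈ st.live, L ∉ st.U ∧ st.root L = L
  liveEnd : ∀ L ∈ st.live, ∀ z ∈ supp (st.ed L), st.root z = L ∨ z ∈ st.U
  liveSmall : ∀ L ∈ st.live, (st.ed L).card < E ∧ blockWt q st L ≤ τ
  dead : ∀ r ∉ st.U, st.root r = r → r ∉ st.live → E ≤ (st.ed r).card ∨ τ < blockWt q st r
  bound : ∀ r, (st.ed r).card ≤ D * E

/-- The state after peeling `r` and keeping `S`, live at threshold `τ`. -/
noncomputable def stepUp (q : ℝ) (E : ℕ) (τ : ℝ) (st : St n) (r : Fin n)
    (S : Finset (Fin n) × Finset (Fin n)) : St n := by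
  classical
  exact
    { step q E st r S with
      live := (st.live \ atLive st r) ∪
        if ((step q E st r S).ed r).card < E ∧ blockWt q (step q E st r S) r ≤ τ
        then {r} else ∅ }

section Step

variable {H0 : Finset (Sym2 (Fin n))} {q τ : ℝ} {E D : ℕ} {st : St n} {r : Fin n}
  {S : Finset (Fin n) × Finset (Fin n)}

theorem up_U : (stepUp q E τ st r S).U = st.U.erase r := rfl

theorem up_tm_self : (stepUp q E τ st r S).tm r = n - st.U.card := step_tm_self (q := q) (E := E) (S := S)

theorem up_tm_ne {z : Fin n} (h : z ≠ r) : (stepUp q E τ st r S).tm z = st.tm z := step_tm_ne (q := q) (E := E) (S := S) h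

theorem up_root_self : (stepUp q E τ st r S).root r = r := step_root_self (q := q) (E := E)

theorem up_root_sel {z : Fin n} (h : st.root z ∈ S.2) : (stepUp q E τ st r S).root z = r :=
  step_root_sel (q := q) (E := E) h

theorem up_root_drop {z : Fin n} (hz : z ≠ r) (h : st.root z ∉ S.2)
    (h' : st.root z ∈ atLive st r) : (stepUp q E τ st r S).root z = z := step_root_drop (q := q) (E := E) hz h h'

theorem up_root_keep {z : Fin n} (hz : z ≠ r) (hS : S.2 ⊆ atLive st r)
    (h : st.root z ∉ atLive st r) : (stepUp q E τ st r S).root z = st.root z :=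
  step_root_keep (q := q) (E := E) hz hS h

theorem up_ed_self :
    (stepUp q E τ st r S).ed r = (S.1.image fun y => s(r, y)) ∪ S.2.biUnion st.ed := step_ed_self (q := q) (E := E)

theorem up_ed_drop {z : Fin n} (hz : z ≠ r) (h : st.root z ∈ atLive st r) :
    (stepUp q E τ st r S).ed z = ∅ := step_ed_drop (q := q) (E := E) hz h

theorem up_ed_keep {z : Fin n} (hz : z ≠ r) (h : st.root z ∉ atLive st r) :
    (stepUp q E τ st r S).ed z = st.ed z := step_ed_keep (q := q) (E := E) hz h

theorem mem_up_live {L : Fin n} : L ∈ (stepUp q E τ st r S).live ↔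
    (L ∈ st.live ∧ L ∉ atLive st r) ∨ (L = r ∧ ((stepUp q E τ st r S).ed r).card < E ∧
      blockWt q (stepUp q E τ st r S) r ≤ τ) := by
  classical
  have e1 : blockWt q (stepUp q E τ st r S) r = blockWt q (step q E st r S) r := rfl
  have e2 : ((stepUp q E τ st r S).ed r).card = ((step q E st r S).ed r).card := rfl
  rw [e1, e2]
  by_cases h : ((step q E st r S).ed r).card < E ∧ blockWt q (step q E st r S) r ≤ τ
  · have e3 : (stepUp q E τ st r S).live = (st.live \ atLive st r) ∪ {r} := by
      simp only [stepUp]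
      rw [if_pos h]
    simp only [e3, mem_union, mem_sdiff, mem_singleton]
    exact or_congr_right ⟨fun e => ⟨e, h⟩, fun e => e.1⟩
  · have e3 : (stepUp q E τ st r S).live = (st.live \ atLive st r) := by
      simp only [stepUp]
      rw [if_neg h, union_empty]
    simp only [e3, mem_sdiff]
    exact ⟨Or.inl, fun e => e.resolve_right fun e' => h e'.2⟩

theorem inv_step (hinv : InvUp H0 q E D τ st) (hE : 0 < E) (hr : r ∈ st.U) (hloop : ∀ e ∈ H0, ¬ e.IsDiag)
    (hτ : τ < 1) (hSD : S.1.card + S.2.card ≤ D)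
    (hS1 : S.1 ⊆ atRaw H0 st r) (hS2 : S.2 ⊆ atLive st r) :
    InvUp H0 q E D τ (stepUp q E τ st r S) := by
  classical
  set st' := stepUp q E τ st r S with hst'
  have hroot_r : st.root r = r := (hinv.fresh r hr).1
  have hU : ∀ {x}, x ∈ st'.U ↔ x ≠ r ∧ x ∈ st.U := by simp [hst', up_U]
  have hcard : st'.U.card + 1 = st.U.card := card_erase_add_one hr
  have hUn : st.U.card ≤ n := by simpa using card_le_univ st.U
  have hpos : 0 < st.U.card := card_pos.2 ⟨r, hr⟩
  have hliveU : ∀ {L}, L ∈ atLive st r → L ∉ st.U ∧ st.root L = L := fun h =>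
    hinv.liveRoot _ (mem_filter.1 h).1
  have hnotr : ∀ {L}, L ∈ atLive st r → L ≠ r := fun h e => (hliveU h).1 (e ▸ hr)
  have hfreshkeep : ∀ x ∈ st.U, x ≠ r → st.root x ∉ atLive st r := by
    intro x hx _ h
    rw [(hinv.fresh x hx).1] at h
    exact (hliveU h).1 hx
  -- the root of an old vertex
  have hcases : ∀ x, x ≠ r → (st.root x ∈ S.2 ∧ st'.root x = r) ∨
      (st.root x ∉ S.2 ∧ st.root x ∈ atLive st r ∧ st'.root x = x) ∨
      (st.root x ∉ atLive st r ∧ st'.root x = st.root x) := by
    intro x hx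
    by_cases h1 : st.root x ∈ S.2
    · exact Or.inl ⟨h1, up_root_sel h1⟩
    · by_cases h2 : st.root x ∈ atLive st r
      · exact Or.inr (Or.inl ⟨h1, h2, up_root_drop hx h1 h2⟩)
      · exact Or.inr (Or.inr ⟨h2, up_root_keep hx hS2 h2⟩)
  have hkeepne : ∀ x, x ≠ r → st.root x ∉ atLive st r → st.root x ≠ r := by
    intro x hx _ e
    by_cases hxU : x ∈ st.U
    · exact hx ((hinv.fresh x hxU).1.symm.trans e)
    · exact (hinv.old x hxU).1 (e ▸ hr)
  have hverts_keep : ∀ x, x ≠ r → st.root x = x → x ∉ atLive st r →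
      st'.verts x = st.verts x := by
    intro x hx hxx hxl
    ext y
    simp only [St.mem_verts]
    rcases eq_or_ne y r with rfl | hy
    · rw [hst', up_root_self, hroot_r]
    · rcases hcases y hy with ⟨h1, h2⟩ | ⟨-, h2, h3⟩ | ⟨-, h3⟩
      · rw [h2]
        exact ⟨fun e => absurd e.symm hx, fun e => absurd (e ▸ hS2 h1) hxl⟩
      · rw [h3]
        exact ⟨fun e => absurd ((congrArg st.root e).trans hxx ▸ h2) hxl,
          fun e => absurd (e ▸ h2) hxl⟩
      · rw [h3]
  refine ⟨?_, ?_, ?_, ?_, ?_, ?_, ?_, ?_, ?_, ?_, ?_, ?_, ?_⟩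
  · intro x
    rcases eq_or_ne x r with hx | hx
    · rw [hx, hst', up_root_self, up_root_self]
    rcases hcases x hx with ⟨-, h⟩ | ⟨-, -, h⟩ | ⟨h1, h⟩
    · rw [h, hst', up_root_self]
    · rw [h, h]
    · rw [h, hst', up_root_keep (hkeepne x hx h1) hS2 (by rwa [hinv.idem]), hinv.idem]
  · intro x hx
    obtain ⟨hxr, hxU⟩ := hU.1 hx
    obtain ⟨h1, h2, h3⟩ := hinv.fresh x hxU
    refine ⟨?_, ?_, ?_⟩
    · rw [hst', up_root_keep hxr hS2 (hfreshkeep x hxU hxr), h1]
    · rw [hst', up_ed_keep hxr (hfreshkeep x hxU hxr), h2]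
    · rw [hst', up_tm_ne hxr, h3]
  · intro x hx
    rcases eq_or_ne x r with hxr | hxr
    · rw [hxr, hst', up_root_self, up_tm_self]
      exact ⟨fun h => (hU.1 h).1 rfl, by simp only [up_U]; rw [card_erase_of_mem hr]; omega,
        le_rfl⟩
    have hxU : x ∉ st.U := fun h => hx (hU.2 ⟨hxr, h⟩)
    obtain ⟨h1, h2, h3⟩ := hinv.old x hxU
    have htm : st'.tm x = st.tm x := up_tm_ne hxr
    refine ⟨?_, by omega, ?_⟩
    · rcases hcases x hxr with ⟨-, h⟩ | ⟨-, -, h⟩ | ⟨-, h⟩
      · rw [h]; exact fun h' => (hU.1 h').1 rfl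
      · rwa [h]
      · rw [h]; exact fun h' => h1 (hU.1 h').2
    · rcases hcases x hxr with ⟨-, h⟩ | ⟨-, -, h⟩ | ⟨hl, h⟩
      · rw [h, htm, hst', up_tm_self]; omega
      · rw [h]
      · rw [h, htm, hst', up_tm_ne (hkeepne x hxr hl)]; exact h3
  · intro x hx y hy e
    rcases eq_or_ne x r with hxr | hxr <;> rcases eq_or_ne y r with hyr | hyr
    · rw [hxr, hyr]
    · rw [hxr, hst', up_tm_self, up_tm_ne hyr] at e
      have := (hinv.old y fun h => hy (hU.2 ⟨hyr, h⟩)).2.1
      omega
    · rw [hyr, hst', up_tm_self, up_tm_ne hxr] at e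
      have := (hinv.old x fun h => hx (hU.2 ⟨hxr, h⟩)).2.1
      omega
    · rw [hst', up_tm_ne hxr, up_tm_ne hyr] at e
      exact hinv.tminj x (fun h => hx (hU.2 ⟨hxr, h⟩)) y (fun h => hy (hU.2 ⟨hyr, h⟩)) e
  · intro x e he
    rcases eq_or_ne x r with hx | hx
    · rw [hx, hst', up_ed_self] at he
      rcases mem_union.1 he with h | h
      · obtain ⟨y, hy, rfl⟩ := mem_image.1 h
        exact (mem_filter.1 (hS1 hy)).2
      · obtain ⟨L, -, hL⟩ := mem_biUnion.1 h
        exact hinv.sub L hL
    · by_cases h : st.root x ∈ atLive st r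
      · rw [hst', up_ed_drop hx h] at he; exact absurd he (notMem_empty _)
      · rw [hst', up_ed_keep hx h] at he; exact hinv.sub x he
  · intro a x y hxy
    rcases eq_or_ne a r with ha | ha
    · rw [ha, hst', up_ed_self] at hxy
      rw [ha]
      have hlate : ∀ z ∈ st.U, z ≠ r → st'.tm r < st'.tm z := fun z hz hzr => by
        rw [hst', up_tm_self, up_tm_ne hzr, (hinv.fresh z hz).2.2]; omega
      rcases mem_union.1 hxy with h | h
      · obtain ⟨z, hz, e⟩ := mem_image.1 h
        obtain ⟨hzU, hzH⟩ := mem_filter.1 (hS1 hz)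
        have hne : z ≠ r := fun e' => hloop _ hzH (by simp [e'])
        rcases Sym2.eq_iff.1 e with ⟨rfl, rfl⟩ | ⟨rfl, rfl⟩
        · exact Or.inl ⟨up_root_self, Or.inr (hlate _ hzU hne)⟩
        · exact Or.inr ⟨up_root_self, Or.inr (hlate _ hzU hne)⟩
      · obtain ⟨L, hL, hLe⟩ := mem_biUnion.1 h
        have hend : ∀ z ∈ supp (st.ed L), st'.root z = r ∨ st'.tm r < st'.tm z := by
          intro z hz
          rcases hinv.liveEnd L (mem_filter.1 (hS2 hL)).1 z hz with h | h
          · exact Or.inl (up_root_sel (h ▸ hL))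
          · rcases eq_or_ne z r with rfl | hzr
            · exact Or.inl up_root_self
            · exact Or.inr (hlate z h hzr)
        rcases hinv.edge L x y hLe with ⟨h1, -⟩ | ⟨h1, -⟩
        · exact Or.inl ⟨up_root_sel (h1 ▸ hL),
            hend y (mem_supp.2 ⟨_, hLe, Sym2.mem_mk_right x y⟩)⟩
        · exact Or.inr ⟨up_root_sel (h1 ▸ hL),
            hend x (mem_supp.2 ⟨_, hLe, Sym2.mem_mk_left x y⟩)⟩
    · by_cases hal : st.root a ∈ atLive st r
      · rw [hst', up_ed_drop ha hal] at hxy; exact absurd hxy (notMem_empty _)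
      rw [hst', up_ed_keep ha hal] at hxy
      have haU : a ∉ st.U := fun h => by
        rw [(hinv.fresh a h).2.1] at hxy; exact absurd hxy (notMem_empty _)
      obtain ⟨-, hta, -⟩ := hinv.old a haU
      have hone : ∀ u v, st.root u = a → (st.root v = a ∨ st.tm a < st.tm v) →
          st'.root u = a ∧ (st'.root v = a ∨ st'.tm a < st'.tm v) := by
        intro u v hu hv
        have hroot : ∀ z, st.root z = a → st'.root z = a := fun z hz => by
          have hzr : z ≠ r := fun e => ha (by rw [← hz, e, hroot_r])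
          rw [hst', up_root_keep hzr hS2 (by rw [hz]; rwa [← hz, hinv.idem, hz] at hal), hz]
        refine ⟨hroot u hu, hv.imp (hroot v) fun h => ?_⟩
        rcases eq_or_ne v r with rfl | hvr
        · rw [hst', up_tm_self, up_tm_ne ha]; exact hta
        · rw [hst', up_tm_ne hvr, up_tm_ne ha]; exact h
      exact (hinv.edge a x y hxy).imp (fun h => hone x y h.1 h.2) (fun h => hone y x h.1 h.2)
  · intro a ha hroot
    rcases eq_or_ne a r with har | har
    · rw [har]
      have hsub : st'.verts r ⊆ insert r (S.2.biUnion st.verts) := by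
        intro z hz
        rw [St.mem_verts] at hz
        rcases eq_or_ne z r with hza | hza
        · exact mem_insert.2 (Or.inl hza)
        rcases hcases z hza with ⟨h, -⟩ | ⟨-, -, h⟩ | ⟨hl, h⟩
        · exact mem_insert_of_mem (mem_biUnion.2 ⟨_, h, St.mem_verts.2 rfl⟩)
        · exact absurd (h ▸ hz) hza
        · exact absurd (h ▸ hz) (hkeepne z hza hl)
      refine (card_le_card hsub).trans ((card_insert_le _ _).trans (Nat.add_le_add_right ?_ 1))
      have hdisj : (S.2 : Set (Fin n)).PairwiseDisjoint st.ed := by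
        intro L hL L' hL' hne
        rw [Function.onFun, Finset.disjoint_left]
        intro e h1 h2
        induction e using Sym2.ind with
        | _ x y =>
          obtain ⟨hLU, -⟩ := hliveU (hS2 hL)
          obtain ⟨hLU', -⟩ := hliveU (hS2 hL')
          have key : ∀ {A B : Fin n} {u v : Fin n}, A ∉ st.U → B ∉ st.U → st.root u = A →
              st.root v = B → (st.root v = A ∨ st.tm A < st.tm v) →
              (st.root u = B ∨ st.tm B < st.tm u) → A = B := by
            intro A B u v hA hB hu hv hv' hu'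
            rcases hv' with h | h
            · exact h.symm.trans hv
            rcases hu' with h' | h'
            · exact hu.symm.trans h'
            have huU : u ∉ st.U := fun h'' => hA (hu ▸ (hinv.fresh u h'').1.symm ▸ h'')
            have hvU : v ∉ st.U := fun h'' => hB (hv ▸ (hinv.fresh v h'').1.symm ▸ h'')
            have := (hinv.old u huU).2.2
            have := (hinv.old v hvU).2.2
            rw [hu] at *
            rw [hv] at *
            omega
          rcases hinv.edge L x y h1 with ⟨a1, b1⟩ | ⟨a1, b1⟩ <;>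
            rcases hinv.edge L' x y h2 with ⟨a2, b2⟩ | ⟨a2, b2⟩
          · exact hne (a1.symm.trans a2)
          · exact hne (key hLU hLU' a1 a2 b1 b2)
          · exact hne (key hLU hLU' a1 a2 b1 b2)
          · exact hne (a1.symm.trans a2)
      have hlink : ∀ L ∈ S.2, ∃ z, st.root z = L ∧ z ≠ r ∧ s(z, r) ∈ st.ed L := by
        intro L hL
        obtain ⟨e, he, hre⟩ := mem_supp.1 (mem_filter.1 (hS2 hL)).2
        have hne : ∀ z, st.root z = L → z ≠ r := fun z hz e =>
          hnotr (hS2 hL) (by rw [← hz, e, hroot_r])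
        induction e using Sym2.ind with
        | _ x y =>
          rcases hinv.edge L x y he with ⟨h1, -⟩ | ⟨h1, -⟩ <;>
            rcases Sym2.mem_iff.1 hre with e' | e'
          · exact absurd e'.symm (hne x h1)
          · exact ⟨x, h1, hne x h1, e'.symm ▸ he⟩
          · exact ⟨y, h1, hne y h1, e'.symm ▸ Sym2.eq_swap ▸ he⟩
          · exact absurd e'.symm (hne y h1)
      choose z hz using hlink
      set g : Fin n → Finset (Sym2 (Fin n)) := fun L =>
        if hL : L ∈ S.2 then insert s(z L hL, r) (st.inner L) else ∅ with hg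
      have hgsub : ∀ L ∈ S.2, g L ⊆ st.ed L := fun L hL => by
        rw [hg]; simp only [dif_pos hL]
        exact insert_subset (hz L hL).2.2 (filter_subset _ _)
      refine card_biUnion_le.trans ((Finset.sum_le_sum (g := fun L => (g L).card) fun L hL => ?_).trans ?_)
      · rw [hg]; simp only [dif_pos hL]
        obtain ⟨hLU, hLL⟩ := hliveU (hS2 hL)
        refine (hinv.size L hLU hLL).trans (le_of_eq (card_insert_of_notMem ?_).symm)
        intro h
        exact hnotr (hS2 hL) ((St.mem_verts.1 (mk_mem_sym2_iff.1 (mem_filter.1 h).2).2).symm.trans hroot_r)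
      rw [← card_biUnion fun L hL L' hL' hne => (hdisj hL hL' hne).mono (hgsub L hL) (hgsub L' hL')]
      refine card_le_card (biUnion_subset.2 fun L hL e he => mem_filter.2 ⟨?_, ?_⟩)
      · rw [hst', up_ed_self]
        exact mem_union_right _ (mem_biUnion.2 ⟨L, hL, hgsub L hL he⟩)
      · rw [hg] at he; simp only [dif_pos hL, mem_insert] at he
        rcases he with rfl | he
        · exact mk_mem_sym2_iff.2 ⟨St.mem_verts.2 (up_root_sel (by rw [(hz L hL).1]; exact hL)),
            St.mem_verts.2 up_root_self⟩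
        · exact mem_sym2_iff.2 fun x hx => St.mem_verts.2 (up_root_sel
            (St.mem_verts.1 (mem_sym2_iff.1 (mem_filter.1 he).2 x hx) ▸ hL))
    · have haU : a ∉ st.U := fun h => ha (hU.2 ⟨har, h⟩)
      rcases hcases a har with ⟨-, h⟩ | ⟨h1, h2, h⟩ | ⟨hl, h⟩
      · exact absurd (hroot.symm.trans h) har
      · have : st'.verts a ⊆ {a} := by
          intro z hz
          rw [St.mem_verts] at hz
          rcases eq_or_ne z r with rfl | hzr
          · rw [hst', up_root_self] at hz; exact absurd hz.symm har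
          rcases hcases z hzr with ⟨-, h'⟩ | ⟨-, -, h'⟩ | ⟨hl', h'⟩
          · exact absurd (hz.symm.trans h') har
          · exact mem_singleton.2 (h'.symm.trans hz)
          · rw [h'] at hz
            rw [← hz, hinv.idem] at h2
            exact absurd h2 hl'
        exact (card_le_card this).trans (by simp)
      · rw [h] at hroot
        have hv := hverts_keep a har hroot (hroot ▸ hl)
        rw [St.inner, hv, hst', up_ed_keep har hl]
        exact hinv.size a haU hroot
  · intro x
    rcases eq_or_ne x r with hx | hx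
    · rw [hx, hst', up_root_self]
    rcases hcases x hx with ⟨hsel, h⟩ | ⟨-, -, h⟩ | ⟨hl, h⟩
    · rw [h]
      set L := st.root x with hL
      have hin : ∀ {a b : Fin n}, st.root a = L → Relation.ReflTransGen st.Intra a b →
          st.root b = L ∧ Relation.ReflTransGen st'.Intra a b := by
        intro a b ha hab
        induction hab with
        | refl => exact ⟨ha, .refl⟩
        | tail h1 h2 ih =>
          refine ⟨h2.1.symm.trans ih.1, ih.2.tail ⟨?_, ?_⟩⟩
          · rw [hst', up_root_sel (ih.1 ▸ hsel), up_root_sel ((h2.1.symm.trans ih.1) ▸ hsel)]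
          · rw [hst', up_root_sel (ih.1 ▸ hsel), up_ed_self]
            exact mem_union_right _ (mem_biUnion.2 ⟨L, hsel, ih.1 ▸ h2.2⟩)
      obtain ⟨e, he, hre⟩ := mem_supp.1 (mem_filter.1 (hS2 hsel)).2
      have hroot' : ∀ z, st.root z = L → z ≠ r := fun z hz e =>
        hnotr (hS2 hsel) (by rw [← hz, e, hroot_r])
      induction e using Sym2.ind with
      | _ a b =>
        obtain ⟨z, hz, hze⟩ : ∃ z, st.root z = L ∧ s(z, r) ∈ st.ed L := by
          rcases hinv.edge L a b he with ⟨h1, -⟩ | ⟨h1, -⟩ <;>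
            rcases Sym2.mem_iff.1 hre with rfl | rfl
          · exact absurd rfl (hroot' _ h1)
          · exact ⟨a, h1, he⟩
          · exact ⟨b, h1, by rwa [Sym2.eq_swap]⟩
          · exact absurd rfl (hroot' _ h1)
        refine ((hin rfl (hinv.conn x)).2.trans (hin (hinv.idem x)
          (intra_symm st (hz ▸ hinv.conn z))).2).tail ⟨?_, ?_⟩
        · rw [hst', up_root_sel (hz ▸ hsel), up_root_self]
        · rw [hst', up_root_sel (hz ▸ hsel), up_ed_self]
          exact mem_union_right _ (mem_biUnion.2 ⟨L, hsel, hze⟩)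
    · rw [h]
    · rw [h]
      have hin : ∀ {b : Fin n}, Relation.ReflTransGen st.Intra x b →
          st.root b = st.root x ∧ Relation.ReflTransGen st'.Intra x b := by
        intro b hxb
        induction hxb with
        | refl => exact ⟨rfl, .refl⟩
        | tail h1 h2 ih =>
          rename_i c d
          have hd : st.root d = st.root x := h2.1.symm.trans ih.1
          have hne : ∀ z, st.root z = st.root x → z ≠ r := fun z hz e =>
            hkeepne x hx hl (by rw [← hz, e, hroot_r])
          refine ⟨hd, ih.2.tail ⟨?_, ?_⟩⟩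
          · rw [hst', up_root_keep (hne c ih.1) hS2 (ih.1 ▸ hl),
              up_root_keep (hne d hd) hS2 (hd ▸ hl), ih.1, hd]
          · rw [hst', up_root_keep (hne c ih.1) hS2 (ih.1 ▸ hl), ih.1,
              up_ed_keep (hkeepne x hx hl) (by rwa [hinv.idem]), ← ih.1]
            exact h2.2
      exact (hin (hinv.conn x)).2
  · intro L hL
    rcases mem_up_live.1 hL with ⟨h1, h2⟩ | ⟨rfl, -⟩
    · obtain ⟨h3, h4⟩ := hinv.liveRoot L h1
      have hne : L ≠ r := fun e => h3 (e ▸ hr)
      exact ⟨fun h => h3 (hU.1 h).2, by rw [hst', up_root_keep hne hS2 (by rwa [h4]), h4]⟩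
    · exact ⟨fun h => (hU.1 h).1 rfl, up_root_self⟩
  · intro L hL z hz
    rcases mem_up_live.1 hL with ⟨h1, h2⟩ | ⟨rfl, -⟩
    · obtain ⟨h3, h4⟩ := hinv.liveRoot L h1
      have hne : L ≠ r := fun e => h3 (e ▸ hr)
      rw [hst', up_ed_keep hne (by rwa [h4])] at hz
      have hzr : z ≠ r := fun e => h2 (mem_filter.2 ⟨h1, e ▸ hz⟩)
      rcases hinv.liveEnd L h1 z hz with h | h
      · exact Or.inl (by rw [hst', up_root_keep hzr hS2 (by rwa [h]), h])
      · exact Or.inr (hU.2 ⟨hzr, h⟩)
    · rw [hst', up_ed_self] at hz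
      obtain ⟨e, he, hze⟩ := mem_supp.1 hz
      rcases eq_or_ne z L with rfl | hzL
      · exact Or.inl up_root_self
      rcases mem_union.1 he with h | h
      · obtain ⟨y, hy, rfl⟩ := mem_image.1 h
        rcases Sym2.mem_iff.1 hze with rfl | rfl
        · exact absurd rfl hzL
        · exact Or.inr (hU.2 ⟨hzL, (mem_filter.1 (hS1 hy)).1⟩)
      · obtain ⟨K, hK, hKe⟩ := mem_biUnion.1 h
        rcases hinv.liveEnd K (mem_filter.1 (hS2 hK)).1 z (mem_supp.2 ⟨_, hKe, hze⟩) with h | h
        · exact Or.inl (up_root_sel (h ▸ hK))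
        · exact Or.inr (hU.2 ⟨hzL, h⟩)
  · intro L hL
    rcases mem_up_live.1 hL with ⟨h1, h2⟩ | ⟨rfl, h1, h2⟩
    · obtain ⟨h3, h4⟩ := hinv.liveRoot L h1
      have hne : L ≠ r := fun e => h3 (e ▸ hr)
      rw [blockWt, hverts_keep L hne h4 h2, hst', up_ed_keep hne (by rwa [h4])]
      exact hinv.liveSmall L h1
    · exact ⟨h1, h2⟩
  · intro a ha hroot hnl
    rcases eq_or_ne a r with har | har
    · rw [har] at hnl ⊢
      by_contra hcon
      push Not at hcon
      exact hnl (mem_up_live.2 (Or.inr ⟨rfl, hcon⟩))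
    have haU : a ∉ st.U := fun h => ha (hU.2 ⟨har, h⟩)
    rcases hcases a har with ⟨-, h⟩ | ⟨-, h2, h⟩ | ⟨hl, h⟩
    · exact absurd (hroot.symm.trans h) har
    · right
      have hn1 : (1 : ℝ) ≤ n := by exact_mod_cast a.pos
      rw [blockWt, hst', up_ed_drop har h2, card_empty, pow_zero, mul_one]
      exact lt_of_lt_of_le hτ (one_le_pow₀ hn1)
    · rw [h] at hroot
      rw [blockWt, hverts_keep a har hroot (hroot ▸ hl), hst', up_ed_keep har hl]
      refine hinv.dead a haU hroot fun hal => ?_
      exact hnl (mem_up_live.2 (Or.inl ⟨hal, hroot ▸ hl⟩))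
  · intro a
    rcases eq_or_ne a r with har | har
    · rw [har, hst', up_ed_self]
      refine (card_union_le _ _).trans ((add_le_add card_image_le (card_biUnion_le_card_mul _ _ E
        fun L hL => (hinv.liveSmall L (mem_filter.1 (hS2 hL)).1).1.le)).trans ?_)
      calc S.1.card + S.2.card * E ≤ S.1.card * E + S.2.card * E :=
            Nat.add_le_add_right (Nat.le_mul_of_pos_right _ hE) _
        _ = (S.1.card + S.2.card) * E := (Nat.add_mul _ _ _).symm
        _ ≤ D * E := Nat.mul_le_mul_right _ hSD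
    · by_cases hal : st.root a ∈ atLive st r
      · rw [hst', up_ed_drop har hal]; simp
      · rw [hst', up_ed_keep har hal]; exact hinv.bound a


end Step

variable {H0 : Finset (Sym2 (Fin n))} {q τ : ℝ} {E D : ℕ}

theorem compat_absent {st : St n} (hinv : InvUp H0 q E D τ st) {r : Fin n} (hr : r ∈ st.U)
    {S : Finset (Fin n) × Finset (Fin n)} (hS2 : S.2 ⊆ atLive st r)
    {F : Finset (Sym2 (Fin w))} {φ : Fin w ↪ Fin n} (hφ : Compat st F φ)
    (hout : r ∉ univ.map φ) :
    Compat (stepUp q E τ st r S) F φ ∧ pend (stepUp q E τ st r S) F φ ≤ pend st F φ := by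
  have hnl : ∀ x ∈ univ.map φ, x ≠ r ∧ st.root x ∉ atLive st r := fun x hx =>
    ⟨fun e => hout (e ▸ hx), fun h => hout
      (supp_subset_range φ (hφ.2 x hx).1 (mem_filter.1 h).2)⟩
  have hroot : ∀ x ∈ univ.map φ, st.root x ≠ r := fun x hx e => hout
    (e ▸ (hφ.2 x hx).2 (St.mem_verts.2 (hinv.idem x)))
  refine ⟨⟨fun e he => ?_, fun x hx => ?_⟩, ?_⟩
  · have hre : r ∉ e := fun h => hout (supp_subset_range φ subset_rfl (mem_supp.2 ⟨e, he, h⟩))
    rcases hφ.1 e he with h | ⟨a, ha⟩
    · left
      rw [up_U, mem_sym2_iff]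
      exact fun z hz => mem_erase.2 ⟨fun e' => hre (e' ▸ hz), mem_sym2_iff.1 h z hz⟩
    · right
      have har : a ≠ r := fun e' => by
        rw [e', (hinv.fresh r hr).2.1] at ha; exact absurd ha (notMem_empty _)
      refine ⟨a, ?_⟩
      rw [up_ed_keep har ?_]
      · exact ha
      · intro h
        induction e using Sym2.ind with
        | _ x y =>
          have hx : x ∈ univ.map φ :=
            supp_subset_range φ subset_rfl (mem_supp.2 ⟨_, he, Sym2.mem_mk_left x y⟩)
          have hy : y ∈ univ.map φ :=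
            supp_subset_range φ subset_rfl (mem_supp.2 ⟨_, he, Sym2.mem_mk_right x y⟩)
          rcases hinv.edge a x y ha with ⟨h1, -⟩ | ⟨h1, -⟩
          · exact (hnl x hx).2 (by rwa [← h1, hinv.idem] at h)
          · exact (hnl y hy).2 (by rwa [← h1, hinv.idem] at h)
  · obtain ⟨hxr, hxl⟩ := hnl x hx
    rw [up_root_keep hxr hS2 hxl, up_ed_keep (hroot x hx) (by rwa [hinv.idem])]
    refine ⟨(hφ.2 x hx).1, fun y hy => ?_⟩
    rw [St.mem_verts] at hy
    rcases eq_or_ne y r with hyr | hyr
    · rw [hyr, up_root_self] at hy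
      exact absurd hy.symm (hroot x hx)
    by_cases h : st.root y ∈ S.2
    · rw [up_root_sel h] at hy
      exact absurd hy.symm (hroot x hx)
    by_cases h' : st.root y ∈ atLive st r
    · rw [up_root_drop hyr h h'] at hy
      rw [hy, hinv.idem] at h'
      exact absurd h' hxl
    · rw [up_root_keep hyr hS2 h'] at hy
      exact (hφ.2 x hx).2 (St.mem_verts.2 hy)
  · refine add_le_add (add_le_add (Nat.mul_le_mul_left 2 (card_le_card ?_)) (card_le_card ?_))
      (card_le_card ?_)
    · exact inter_subset_inter subset_rfl (by rw [up_U]; exact erase_subset _ _)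
    · exact monotone_filter_right _ fun e _ h => sym2_mono (erase_subset r st.U) h
    · intro L hL
      obtain ⟨h1, h2⟩ := mem_inter.1 hL
      rcases mem_up_live.1 h1 with ⟨h, -⟩ | ⟨rfl, -⟩
      · exact mem_inter.2 ⟨h, h2⟩
      · exact absurd h2 hout

theorem compat_present {st : St n} (hinv : InvUp H0 q E D τ st) {r : Fin n} (hr : r ∈ st.U)
    {F : Finset (Sym2 (Fin w))} {φ : Fin w ↪ Fin n}
    (hφ' : φ ∈ embs H0 F) (hφ : Compat st F φ) (hin : r ∈ univ.map φ)
    {S : Finset (Fin n) × Finset (Fin n)}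
    (hSdef : S = ((atRaw H0 st r).filter fun y => s(r, y) ∈ F.image (Sym2.map φ),
      (atLive st r).filter fun L => L ∈ univ.map φ)) :
    Compat (stepUp q E τ st r S) F φ ∧
      pend (stepUp q E τ st r S) F φ + 1 + S.1.card + S.2.card ≤ pend st F φ := by
  have hIH : F.image (Sym2.map φ) ⊆ H0 := image_subset_iff.2 (mem_filter.1 hφ').2
  have hS1 : S.1 ⊆ atRaw H0 st r := by rw [hSdef]; exact filter_subset _ _
  have hS2 : S.2 ⊆ atLive st r := by rw [hSdef]; exact filter_subset _ _
  have hsel : ∀ x ∈ univ.map φ, st.root x ∈ atLive st r → st.root x ∈ S.2 := fun x hx h => by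
    rw [hSdef]
    exact mem_filter.2 ⟨h, (hφ.2 x hx).2 (St.mem_verts.2 (hinv.idem x))⟩
  have hmemS2 : ∀ L ∈ S.2, st.root L = L ∧ L ∈ univ.map φ := fun L hL => by
    rw [hSdef] at hL
    exact ⟨(hinv.liveRoot L (mem_filter.1 (mem_filter.1 hL).1).1).2, (mem_filter.1 hL).2⟩
  have hne : ∀ x, x ≠ r → st.root x ≠ r := by
    intro x hx e
    by_cases hxU : x ∈ st.U
    · exact hx ((hinv.fresh x hxU).1.symm.trans e)
    · exact (hinv.old x hxU).1 (e ▸ hr)
  refine ⟨⟨fun e he => ?_, fun x hx => ?_⟩, ?_⟩
  · induction e using Sym2.ind with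
    | _ a b =>
      have ha : a ∈ univ.map φ :=
        supp_subset_range φ subset_rfl (mem_supp.2 ⟨_, he, Sym2.mem_mk_left a b⟩)
      have hb : b ∈ univ.map φ :=
        supp_subset_range φ subset_rfl (mem_supp.2 ⟨_, he, Sym2.mem_mk_right a b⟩)
      rcases hφ.1 _ he with h | ⟨c, hc⟩
      · obtain ⟨haU, hbU⟩ := mk_mem_sym2_iff.1 h
        rcases eq_or_ne a r with har | har
        · refine Or.inr ⟨r, ?_⟩
          rw [up_ed_self, hSdef]
          refine mem_union_left _ (mem_image.2 ⟨b, mem_filter.2 ⟨mem_filter.2 ⟨hbU, ?_⟩, ?_⟩, by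
            rw [har]⟩) <;> rw [← har]
          · exact hIH he
          · exact he
        rcases eq_or_ne b r with hbr | hbr
        · refine Or.inr ⟨r, ?_⟩
          rw [up_ed_self, hSdef]
          refine mem_union_left _ (mem_image.2 ⟨a, mem_filter.2 ⟨mem_filter.2 ⟨haU, ?_⟩, ?_⟩, by
            rw [← hbr, Sym2.eq_swap]⟩) <;> rw [← hbr, Sym2.eq_swap]
          · exact hIH he
          · exact he
        exact Or.inl (by rw [up_U]; exact mk_mem_sym2_iff.2 ⟨mem_erase.2 ⟨har, haU⟩,
          mem_erase.2 ⟨hbr, hbU⟩⟩)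
      · have hcr : c ≠ r := fun e' => by
          rw [e', (hinv.fresh r hr).2.1] at hc; exact absurd hc (notMem_empty _)
        by_cases hcl : st.root c ∈ atLive st r
        · have hcc : st.root c = c := by
            rcases hinv.edge c a b hc with ⟨h, -⟩ | ⟨h, -⟩ <;> rw [← h, hinv.idem]
          rw [hcc] at hcl
          refine Or.inr ⟨r, ?_⟩
          rw [up_ed_self]
          refine mem_union_right _ (mem_biUnion.2 ⟨c, ?_, hc⟩)
          rcases hinv.edge c a b hc with ⟨h, -⟩ | ⟨h, -⟩
          · exact h ▸ hsel a ha (h ▸ hcl)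
          · exact h ▸ hsel b hb (h ▸ hcl)
        · exact Or.inr ⟨c, by rw [up_ed_keep hcr hcl]; exact hc⟩
  · by_cases hx' : x = r ∨ st.root x ∈ atLive st r
    · have hroot : (stepUp q E τ st r S).root x = r := by
        rcases hx' with h | h
        · rw [h, up_root_self]
        · exact up_root_sel (hsel x hx h)
      rw [hroot, up_ed_self]
      refine ⟨union_subset (image_subset_iff.2 fun y hy => ?_) (biUnion_subset.2 fun L hL => ?_),
        fun y hy => ?_⟩
      · rw [hSdef] at hy; exact (mem_filter.1 hy).2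
      · have := (hφ.2 L (hmemS2 L hL).2).1
        rwa [(hmemS2 L hL).1] at this
      · rw [St.mem_verts] at hy
        rcases eq_or_ne y r with hyr | hyr
        · rw [hyr]; exact hin
        by_cases h : st.root y ∈ S.2
        · exact (hφ.2 _ (hmemS2 _ h).2).2 (St.mem_verts.2 (hinv.idem y).symm)
        by_cases h' : st.root y ∈ atLive st r
        · rw [up_root_drop hyr h h'] at hy; exact absurd hy hyr
        · rw [up_root_keep hyr hS2 h'] at hy; exact absurd hy (hne y hyr)
    · push Not at hx'
      obtain ⟨hxr, hxl⟩ := hx'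
      rw [up_root_keep hxr hS2 hxl, up_ed_keep (hne x hxr) (by rwa [hinv.idem])]
      refine ⟨(hφ.2 x hx).1, fun y hy => ?_⟩
      rw [St.mem_verts] at hy
      rcases eq_or_ne y r with hyr | hyr
      · rw [hyr]; exact hin
      by_cases h : st.root y ∈ S.2
      · rw [up_root_sel h] at hy; exact absurd hy.symm (hne x hxr)
      by_cases h' : st.root y ∈ atLive st r
      · rw [up_root_drop hyr h h'] at hy
        rw [hy, hinv.idem] at h'
        exact absurd h' hxl
      · rw [up_root_keep hyr hS2 h'] at hy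
        exact (hφ.2 x hx).2 (St.mem_verts.2 hy)
  · have h1 : (univ.map φ ∩ (stepUp q E τ st r S).U).card + 1 = (univ.map φ ∩ st.U).card := by
      rw [up_U, inter_erase, card_erase_add_one (mem_inter.2 ⟨hin, hr⟩)]
    have h2 : ((F.image (Sym2.map φ)).filter (· ∈ (stepUp q E τ st r S).U.sym2)).card + S.1.card ≤
        ((F.image (Sym2.map φ)).filter (· ∈ st.U.sym2)).card := by
      rw [← card_image_of_injective S.1 (fun a b h => Sym2.congr_right.1 h : Function.Injective
        fun y => s(r, y)), ← card_union_of_disjoint]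
      · refine card_le_card (union_subset (monotone_filter_right _ fun e _ h =>
          sym2_mono (erase_subset r st.U) h) (image_subset_iff.2 fun y hy => ?_))
        rw [hSdef] at hy
        obtain ⟨h3, h4⟩ := mem_filter.1 hy
        exact mem_filter.2 ⟨h4, mk_mem_sym2_iff.2 ⟨hr, (mem_filter.1 h3).1⟩⟩
      · rw [Finset.disjoint_left]
        intro e he he'
        obtain ⟨y, -, rfl⟩ := mem_image.1 he'
        exact (mem_erase.1 (mk_mem_sym2_iff.1 (mem_filter.1 he).2).1).1 rfl
    have h3 : ((stepUp q E τ st r S).live ∩ univ.map φ).card + S.2.card ≤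
        (st.live ∩ univ.map φ).card + 1 := by
      rw [← card_union_of_disjoint]
      · refine (card_le_card (t := insert r (st.live ∩ univ.map φ)) ?_).trans (card_insert_le _ _)
        intro L hL
        rcases mem_union.1 hL with h | h
        · obtain ⟨h4, h5⟩ := mem_inter.1 h
          rcases mem_up_live.1 h4 with ⟨h6, -⟩ | ⟨rfl, -⟩
          · exact mem_insert_of_mem (mem_inter.2 ⟨h6, h5⟩)
          · exact mem_insert_self _ _
        · exact mem_insert_of_mem (mem_inter.2 ⟨(mem_filter.1 (hS2 h)).1, (hmemS2 L h).2⟩)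
      · rw [Finset.disjoint_left]
        intro L hL hL'
        rcases mem_up_live.1 (mem_inter.1 hL).1 with ⟨-, h6⟩ | ⟨rfl, -⟩
        · exact h6 (hS2 hL')
        · exact (hinv.liveRoot L (mem_filter.1 (hS2 hL')).1).1 hr
    simp only [pend]
    omega


/-- The invariant at rate one of the state with no live block. -/
theorem InvUp.toInv {st : St n} (hinv : InvUp H0 q E D τ st) :
    Inv H0 1 E { st with live := ∅ } := by
  refine ⟨hinv.idem, hinv.fresh, hinv.old, hinv.tminj, hinv.sub, hinv.edge, hinv.size, hinv.conn,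
    fun L h => absurd h (notMem_empty _), fun L h => absurd h (notMem_empty _),
    fun L h => absurd h (notMem_empty _), fun r _ hr _ => Or.inr ?_⟩
  simp only [blockWt, one_pow, mul_one]
  exact one_le_pow₀ (by exact_mod_cast r.pos)

theorem InvUp.ed_disjoint {st : St n} (hinv : InvUp H0 q E D τ st) {r r' : Fin n}
    (hr : r ∉ st.U) (hne : r ≠ r') : Disjoint (st.ed r) (st.ed r') :=
  hinv.toInv.ed_disjoint hr hne

/-- Some vertex has few open items. -/
theorem exists_sparse_vertex {η : ℝ} (hη : 0 < η) (hn : 2 ≤ n) (hE : 2 ≤ E)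
    (hq0 : 0 < q) (hqη : q ≤ (n : ℝ) ^ (-η)) (hR : Rich q H0)
    {st : St n} (hinv : InvUp H0 q E D ((n : ℝ) ^ (-η)) st) (hne : st.U.Nonempty) :
    ∃ r ∈ st.U, (((atRaw H0 st r).card + (atLive st r).card : ℕ) : ℝ) ≤ 4 * E / η := by
  classical
  set K0 := H0.filter (· ∈ st.U.sym2) with hK0
  set K := K0 ∪ st.live.biUnion st.ed with hK
  have hdis : Disjoint K0 (st.live.biUnion st.ed) := by
    rw [Finset.disjoint_left]
    intro e h1 h2
    obtain ⟨L, hL, he⟩ := mem_biUnion.1 h2
    induction e using Sym2.ind with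
    | _ x y =>
      obtain ⟨hx, hy⟩ := mk_mem_sym2_iff.1 (mem_filter.1 h1).2
      rcases hinv.edge L x y he with ⟨h, -⟩ | ⟨h, -⟩
      · exact (hinv.liveRoot L hL).1 ((hinv.fresh x hx).1.symm.trans h ▸ hx)
      · exact (hinv.liveRoot L hL).1 ((hinv.fresh y hy).1.symm.trans h ▸ hy)
  have hcard : K.card = K0.card + ∑ L ∈ st.live, (st.ed L).card := by
    rw [hK, card_union_of_disjoint hdis, card_biUnion fun L hL L' _ hne =>
      hinv.ed_disjoint (hinv.liveRoot L hL).1 hne]
  have hKH : K ⊆ H0 :=
    union_subset (filter_subset _ _) (biUnion_subset.2 fun L _ => hinv.sub L)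
  have hsupp : (supp K).card ≤ st.U.card + ∑ L ∈ st.live, (st.verts L).card := by
    refine le_trans (card_le_card (t := st.U ∪ st.live.biUnion st.verts) ?_)
      ((card_union_le _ _).trans (Nat.add_le_add_left card_biUnion_le _))
    intro z hz
    obtain ⟨e, he, hze⟩ := mem_supp.1 hz
    rcases mem_union.1 he with h | h
    · exact mem_union_left _ (mem_sym2_iff.1 (mem_filter.1 h).2 z hze)
    · obtain ⟨L, hL, heL⟩ := mem_biUnion.1 h
      rcases hinv.liveEnd L hL z (mem_supp.2 ⟨e, heL, hze⟩) with h' | h'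
      · exact mem_union_right _ (mem_biUnion.2 ⟨L, hL, St.mem_verts.2 h'⟩)
      · exact mem_union_left _ h'
  have hn0 : (0 : ℝ) < n := by exact_mod_cast (by omega : 0 < n)
  have hn1 : (1 : ℝ) ≤ n := by exact_mod_cast (by omega : 1 ≤ n)
  set x := (n : ℝ) ^ (-η) with hx
  have hx0 : 0 ≤ x := Real.rpow_nonneg hn0.le _
  have h1 : (1 : ℝ) / 2 ≤ (n : ℝ) ^ st.U.card * x ^ (K0.card + st.live.card) := by
    refine (hR K hKH).trans ?_
    calc ((orb (pairAct n) K).card : ℝ) * q ^ K.card
        ≤ (n : ℝ) ^ (st.U.card + ∑ L ∈ st.live, (st.verts L).card) * q ^ K.card := by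
          refine mul_le_mul_of_nonneg_right ?_ (by positivity)
          exact_mod_cast (orb_card_le_supp K).trans
            (Nat.pow_le_pow_right (by omega) hsupp)
      _ = (n : ℝ) ^ st.U.card * (q ^ K0.card * ∏ L ∈ st.live, blockWt q st L) := by
          simp only [blockWt, Finset.prod_mul_distrib]
          rw [Finset.prod_pow_eq_pow_sum, Finset.prod_pow_eq_pow_sum, hcard, pow_add, pow_add]
          ring
      _ ≤ _ := by
          refine mul_le_mul_of_nonneg_left ?_ (by positivity)
          rw [pow_add, ← prod_const x (s := st.live)]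
          exact mul_le_mul (pow_le_pow_left₀ hq0.le hqη _)
            (Finset.prod_le_prod (fun L _ => by rw [blockWt]; positivity)
              fun L hL => (hinv.liveSmall L hL).2)
            (Finset.prod_nonneg fun L _ => by rw [blockWt]; positivity) (pow_nonneg hx0 _)
  have hcount : η * ((K0.card + st.live.card : ℕ) : ℝ) ≤ 2 * st.U.card := by
    by_contra hcon
    rw [not_le] at hcon
    have hU1 : (1 : ℝ) ≤ st.U.card := by exact_mod_cast hne.card_pos
    have h2 : (n : ℝ) ^ st.U.card * x ^ (K0.card + st.live.card) < (n : ℝ) ^ (-1 : ℝ) := by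
      rw [hx, ← Real.rpow_natCast ((n : ℝ) ^ (-η)), ← Real.rpow_mul hn0.le, ← Real.rpow_natCast,
        ← Real.rpow_add hn0]
      exact Real.rpow_lt_rpow_of_exponent_lt (by exact_mod_cast (by omega : 1 < n)) (by linarith)
    rw [Real.rpow_neg_one] at h2
    have : (n : ℝ)⁻¹ ≤ 1 / 2 := by
      rw [one_div]; exact inv_anti₀ two_pos (by exact_mod_cast hn)
    linarith
  -- double counting
  have hbip : ∀ (T : Finset (Finset (Fin n))), ∑ r ∈ st.U, (T.filter (r ∈ ·)).card =
      ∑ B ∈ T, (st.U.filter (· ∈ B)).card := fun T => by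
    simp only [card_filter]; rw [Finset.sum_comm]
  have hsum : ∑ r ∈ st.U, ((atRaw H0 st r).card + (atLive st r).card) ≤
      2 * E * (K0.card + st.live.card) := by
    rw [Finset.sum_add_distrib, mul_add]
    refine add_le_add ?_ ?_
    · calc ∑ r ∈ st.U, (atRaw H0 st r).card ≤ ∑ r ∈ st.U, (K0.filter (r ∈ ·)).card := by
            refine Finset.sum_le_sum fun r hr => card_le_card_of_injOn (fun y => s(r, y)) ?_ ?_
            · intro y hy
              obtain ⟨h3, h4⟩ := mem_filter.1 (mem_coe.1 hy)
              exact mem_coe.2 (mem_filter.2 ⟨mem_filter.2 ⟨h4, mk_mem_sym2_iff.2 ⟨hr, h3⟩⟩,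
                Sym2.mem_mk_left r y⟩)
            · exact fun y _ y' _ h => Sym2.congr_right.1 h
        _ = ∑ e ∈ K0, (st.U.filter (· ∈ e)).card := by
            simp only [card_filter]; rw [Finset.sum_comm]
        _ ≤ ∑ _e ∈ K0, 2 := by
            refine Finset.sum_le_sum fun e _ => ?_
            induction e using Sym2.ind with
            | _ a b =>
              refine (card_le_card (t := {a, b}) fun z hz => ?_).trans card_le_two
              simpa using (mem_filter.1 hz).2
        _ ≤ 2 * E * K0.card := by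
            rw [sum_const, smul_eq_mul, mul_comm]; exact Nat.mul_le_mul_right _ (by omega)
    · calc ∑ r ∈ st.U, (atLive st r).card
          = ∑ L ∈ st.live, (st.U.filter (· ∈ supp (st.ed L))).card := by
            simp only [atLive, card_filter]; rw [Finset.sum_comm]
        _ ≤ ∑ _L ∈ st.live, 2 * E := by
            refine Finset.sum_le_sum fun L hL => ?_
            refine ((card_le_card fun z hz => (mem_filter.1 hz).2).trans (card_supp_le _)).trans ?_
            have := (hinv.liveSmall L hL).1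
            omega
        _ = 2 * E * st.live.card := by rw [sum_const, smul_eq_mul, mul_comm]
  obtain ⟨r, hr, hmin⟩ := Finset.exists_min_image st.U
    (fun r => (atRaw H0 st r).card + (atLive st r).card) hne
  refine ⟨r, hr, ?_⟩
  have h3 : st.U.card * ((atRaw H0 st r).card + (atLive st r).card) ≤
      2 * E * (K0.card + st.live.card) := by
    refine le_trans ?_ hsum
    rw [← smul_eq_mul, ← sum_const]
    exact Finset.sum_le_sum hmin
  have h4 : (st.U.card : ℝ) * (((atRaw H0 st r).card + (atLive st r).card : ℕ) : ℝ) ≤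
      2 * E * ((K0.card + st.live.card : ℕ) : ℝ) := by exact_mod_cast h3
  have hU0 : (0 : ℝ) < st.U.card := by exact_mod_cast hne.card_pos
  rw [le_div_iff₀ hη]
  refine le_of_mul_le_mul_left ?_ hU0
  calc (st.U.card : ℝ) * ((((atRaw H0 st r).card + (atLive st r).card : ℕ) : ℝ) * η)
      = η * ((st.U.card : ℝ) * (((atRaw H0 st r).card + (atLive st r).card : ℕ) : ℝ)) := by ring
    _ ≤ η * (2 * E * ((K0.card + st.live.card : ℕ) : ℝ)) := mul_le_mul_of_nonneg_left h4 hη.le
    _ = 2 * E * (η * ((K0.card + st.live.card : ℕ) : ℝ)) := by ring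
    _ ≤ 2 * E * (2 * st.U.card) := mul_le_mul_of_nonneg_left hcount (by positivity)
    _ = _ := by ring

/-- The greedy peeling keeps the weighted count. -/
theorem exists_final {η : ℝ} (hη : 0 < η) (hn : 2 ≤ n) (hE : 2 ≤ E)
    (hsmall : (n : ℝ) ^ (-η) < 1 / 2) (hq0 : 0 < q) (hqη : q ≤ (n : ℝ) ^ (-η))
    (hR : Rich q H0) (hloop : ∀ e ∈ H0, ¬ e.IsDiag) (F : Finset (Sym2 (Fin w)))
    (hD : 4 * E / η ≤ (D : ℝ)) {κ : ℝ} (hκ : κ = 1 / ((D : ℝ) + 1)) :
    ∀ (m : ℕ) (st : St n), st.U.card = m → InvUp H0 q E D ((n : ℝ) ^ (-η)) st →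
      ∃ fin : St n, InvUp H0 q E D ((n : ℝ) ^ (-η)) fin ∧ fin.U = ∅ ∧ fin.live = ∅ ∧
        ∑ φ ∈ compatible H0 st F, (κ / 4) ^ pend st F φ ≤ (compatible H0 fin F).card := by
  classical
  have hκ0 : 0 < κ := by rw [hκ]; positivity
  have hκ1 : κ ≤ 1 := by
    rw [hκ, div_le_one (by positivity)]; linarith [Nat.cast_nonneg (α := ℝ) D]
  have hκ4 : κ / 4 ≤ 1 := by linarith
  intro m
  induction m with
  | zero =>
    intro st hU hinv
    have hU' : st.U = ∅ := card_eq_zero.1 hU
    refine ⟨st, hinv, hU', eq_empty_of_forall_notMem fun L hL => ?_, ?_⟩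
    · have h1 := hR (st.ed L) (hinv.sub L)
      have h2 : ((orb (pairAct n) (st.ed L)).card : ℝ) ≤ (n : ℝ) ^ (st.verts L).card := by
        refine le_trans (Nat.cast_le.2 (orb_card_le_supp _)) ?_
        push_cast
        refine pow_le_pow_right₀ (by exact_mod_cast (by omega : 1 ≤ n)) (card_le_card fun z hz => ?_)
        rcases hinv.liveEnd L hL z hz with h | h
        · exact St.mem_verts.2 h
        · rw [hU'] at h; exact absurd h (notMem_empty _)
      have h3 := (hinv.liveSmall L hL).2
      rw [blockWt] at h3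
      have h4 := mul_le_mul_of_nonneg_right h2 (pow_nonneg hq0.le (st.ed L).card)
      linarith
    · refine (Finset.sum_le_sum fun φ _ => pow_le_one₀ (by positivity) hκ4).trans ?_
      simp
  | succ m ih =>
    intro st hU hinv
    obtain ⟨r, hr, hdeg⟩ := exists_sparse_vertex hη hn hE hq0 hqη hR hinv
      (card_pos.1 (by omega))
    have hdegD : (atRaw H0 st r).card + (atLive st r).card ≤ D := by
      exact_mod_cast hdeg.trans hD
    set I1 := atRaw H0 st r with hI1
    set I2 := atLive st r with hI2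
    set P := I1.powerset ×ˢ I2.powerset with hP
    set wgt : Finset (Fin n) × Finset (Fin n) → ℝ := fun S =>
      (κ ^ S.1.card * (1 - κ) ^ (I1.card - S.1.card)) *
        (κ ^ S.2.card * (1 - κ) ^ (I2.card - S.2.card)) with hwgt
    have hw0 : ∀ S, 0 ≤ wgt S := fun S => by
      have : 0 ≤ 1 - κ := by linarith
      rw [hwgt]; positivity
    have hwsum : ∑ S ∈ P, wgt S = 1 := by
      rw [hP, Finset.sum_product]
      simp only [hwgt, ← Finset.mul_sum, ← Finset.sum_mul, Finset.sum_pow_mul_eq_add_pow]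
      simp
    set G : Finset (Fin n) × Finset (Fin n) → ℝ := fun S =>
      ∑ φ ∈ compatible H0 (stepUp q E ((n : ℝ) ^ (-η)) st r S) F, (κ / 4) ^ pend (stepUp q E ((n : ℝ) ^ (-η)) st r S) F φ with hG
    obtain ⟨S₀, hS₀, hmax⟩ := Finset.exists_max_image P G
      ⟨(∅, ∅), mem_product.2 ⟨empty_mem_powerset _, empty_mem_powerset _⟩⟩
    have hkey : ∑ φ ∈ compatible H0 st F, (κ / 4) ^ pend st F φ ≤ G S₀ := by
      calc ∑ φ ∈ compatible H0 st F, (κ / 4) ^ pend st F φ
          ≤ ∑ φ ∈ compatible H0 st F, ∑ S ∈ P, wgt S *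
              (if Compat (stepUp q E ((n : ℝ) ^ (-η)) st r S) F φ then (κ / 4) ^ pend (stepUp q E ((n : ℝ) ^ (-η)) st r S) F φ else 0) := by
            refine Finset.sum_le_sum fun φ hφ => ?_
            obtain ⟨hφe, hφc⟩ := mem_compatible.1 hφ
            by_cases hin : r ∈ univ.map φ
            · set S : Finset (Fin n) × Finset (Fin n) :=
                (I1.filter fun y => s(r, y) ∈ F.image (Sym2.map φ),
                  I2.filter fun L => L ∈ univ.map φ) with hSdef
              obtain ⟨hc, hp⟩ := compat_present (q := q) (E := E) (τ := (n : ℝ) ^ (-η)) hinv hr hφe hφc hin hSdef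
              have hSP : S ∈ P := mem_product.2 ⟨mem_powerset.2 (filter_subset _ _),
                mem_powerset.2 (filter_subset _ _)⟩
              refine le_trans ?_ (Finset.single_le_sum (f := fun S => wgt S *
                (if Compat (stepUp q E ((n : ℝ) ^ (-η)) st r S) F φ then (κ / 4) ^ pend (stepUp q E ((n : ℝ) ^ (-η)) st r S) F φ else 0))
                (fun S _ => mul_nonneg (hw0 S) (by split_ifs <;> positivity)) hSP)
              rw [if_pos hc]
              refine (pow_le_pow_of_le_one (by positivity) hκ4 hp).trans ?_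
              rw [pow_add, pow_add, pow_add, mul_comm (wgt S), mul_assoc, mul_assoc]
              refine mul_le_mul_of_nonneg_left ?_ (by positivity)
              rw [hwgt]
              dsimp only
              calc (κ / 4) ^ 1 * ((κ / 4) ^ S.1.card * (κ / 4) ^ S.2.card)
                  ≤ (1 / 4) * (κ ^ S.1.card * κ ^ S.2.card) := by
                    refine mul_le_mul (by rw [pow_one]; linarith) (mul_le_mul
                      (pow_le_pow_left₀ (by positivity) (by linarith) _)
                      (pow_le_pow_left₀ (by positivity) (by linarith) _) (by positivity)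
                      (by positivity)) (by positivity) (by norm_num)
                _ ≤ ((1 - κ) ^ ((I1.card - S.1.card) + (I2.card - S.2.card))) *
                      (κ ^ S.1.card * κ ^ S.2.card) :=
                    mul_le_mul_of_nonneg_right (one_sub_pow_ge hκ (by omega)) (by positivity)
                _ = _ := by rw [pow_add]; ring
            · calc (κ / 4) ^ pend st F φ = ∑ S ∈ P, wgt S * (κ / 4) ^ pend st F φ := by
                    rw [← Finset.sum_mul, hwsum, one_mul]
                _ ≤ _ := by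
                    refine Finset.sum_le_sum fun S hS => mul_le_mul_of_nonneg_left ?_ (hw0 S)
                    obtain ⟨hc, hp⟩ := compat_absent hinv hr
                      (mem_powerset.1 (mem_product.1 hS).2) hφc hin
                    rw [if_pos hc]
                    exact pow_le_pow_of_le_one (by positivity) hκ4 hp
        _ = ∑ S ∈ P, wgt S * ∑ φ ∈ compatible H0 st F,
              (if Compat (stepUp q E ((n : ℝ) ^ (-η)) st r S) F φ then (κ / 4) ^ pend (stepUp q E ((n : ℝ) ^ (-η)) st r S) F φ else 0) := by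
            rw [Finset.sum_comm]; simp only [Finset.mul_sum]
        _ ≤ ∑ S ∈ P, wgt S * G S₀ := by
            refine Finset.sum_le_sum fun S hS => mul_le_mul_of_nonneg_left ?_ (hw0 S)
            refine le_trans ?_ (hmax S hS)
            rw [← Finset.sum_filter]
            refine Finset.sum_le_sum_of_subset_of_nonneg (fun φ hφ => ?_) fun _ _ _ => by positivity
            obtain ⟨h1, h2⟩ := mem_filter.1 hφ
            exact mem_compatible.2 ⟨(mem_compatible.1 h1).1, h2⟩
        _ = G S₀ := by rw [← Finset.sum_mul, hwsum, one_mul]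
    obtain ⟨hS1, hS2⟩ := mem_product.1 hS₀
    obtain ⟨fin, h1, h2, h3, h4⟩ := ih (stepUp q E ((n : ℝ) ^ (-η)) st r S₀)
      (by rw [up_U, card_erase_of_mem hr]; omega)
      (inv_step hinv (by omega) hr hloop (by linarith) (by
        have := card_le_card (mem_powerset.1 hS1)
        have := card_le_card (mem_powerset.1 hS2)
        omega) (mem_powerset.1 hS1) (mem_powerset.1 hS2))
    exact ⟨fin, h1, h2, h3, hkey.trans h4⟩

/-- A final state with many compatible embeddings, at threshold `n ^ (-β)`. -/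
theorem exists_blocks_up {n w : ℕ} {H0 : Finset (Sym2 (Fin n))} {q : ℝ} {E D : ℕ} {β : ℝ}
    (hn : 2 ≤ n) (hE : 2 ≤ E) (hβ : 0 < β) (hD : 4 * (E : ℝ) / β ≤ (D : ℝ))
    (hsmall : (n : ℝ) ^ (-β) < 1 / 2) (hq0 : 0 < q) (hqβ : q ≤ (n : ℝ) ^ (-β))
    (hR : Rich q H0) (hloop : ∀ e ∈ H0, ¬ e.IsDiag) (F : Finset (Sym2 (Fin w))) :
    ∃ fin : St n, Inv H0 1 E fin ∧ fin.U = ∅ ∧ fin.live = ∅ ∧
      (∀ r, (fin.ed r).card ≤ D * E) ∧
      (∀ r, fin.root r = r → E ≤ (fin.ed r).card ∨ (n : ℝ) ^ (-β) < blockWt q fin r) ∧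
      ((embs H0 F).card : ℝ) ≤
        (4 * ((D : ℝ) + 1)) ^ (2 * w + F.card) * (compatible H0 fin F).card := by
  classical
  set κ : ℝ := 1 / ((D : ℝ) + 1) with hκ
  have hinit : InvUp H0 q E D ((n : ℝ) ^ (-β)) (St.init n) := by
    have h0 := inv_init H0 q E
    exact ⟨h0.idem, h0.fresh, h0.old, h0.tminj, h0.sub, h0.edge, h0.size, h0.conn, h0.liveRoot,
      h0.liveEnd, fun _ h => absurd h (notMem_empty _), fun r hr => absurd (mem_univ r) hr,
      fun r => by simp [St.init]⟩
  obtain ⟨fin, h1, h2, h3, h4⟩ := exists_final hβ hn hE hsmall hq0 hqβ hR hloop F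
    hD hκ _ (St.init n) rfl hinit
  have hU : ∀ r, r ∉ fin.U := fun r => by simp [h2]
  have hL : ∀ r, r ∉ fin.live := fun r => by simp [h3]
  refine ⟨fin, ?_, h2, h3, h1.bound, fun r hr => h1.dead r (hU r) hr (hL r), ?_⟩
  · refine ⟨h1.idem, h1.fresh, h1.old, h1.tminj, h1.sub, h1.edge, h1.size, h1.conn, h1.liveRoot,
      h1.liveEnd, fun L h => absurd h (hL L), fun r _ _ _ => Or.inr ?_⟩
    rw [blockWt, one_pow, mul_one]
    exact one_le_pow₀ (by exact_mod_cast (by omega : 1 ≤ n))
  · have hκ0 : 0 < κ := by positivity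
    have hκ4 : κ / 4 ≤ 1 := by
      have : κ ≤ 1 := by
        rw [hκ, div_le_one (by positivity)]; linarith [Nat.cast_nonneg (α := ℝ) D]
      linarith
    have hall : compatible H0 (St.init n) F = embs H0 F := by
      ext φ
      refine ⟨fun h => (mem_compatible.1 h).1, fun h => mem_compatible.2 ⟨h, fun e _ => Or.inl ?_,
        fun x hx => ⟨empty_subset _, ?_⟩⟩⟩
      · exact mem_sym2_iff.2 fun z _ => mem_univ z
      · intro y hy
        rw [St.mem_verts] at hy
        exact (show y = x from hy) ▸ hx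
    have hpend : ∀ φ, pend (St.init n) F φ ≤ 2 * w + F.card := fun φ => by
      simp only [pend, St.init, inter_univ, empty_inter, card_empty, add_zero, card_map, card_univ,
        Fintype.card_fin]
      exact Nat.add_le_add_left ((card_filter_le _ _).trans card_image_le) _
    have h5 : ((embs H0 F).card : ℝ) * (κ / 4) ^ (2 * w + F.card) ≤ (compatible H0 fin F).card := by
      refine le_trans ?_ h4
      rw [hall, ← nsmul_eq_mul, ← sum_const]
      exact Finset.sum_le_sum fun φ _ => pow_le_pow_of_le_one (by positivity) hκ4 (hpend φ)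
    have h6 : 4 / κ = 4 * ((D : ℝ) + 1) := by
      rw [hκ, div_div_eq_mul_div, div_one]
    calc ((embs H0 F).card : ℝ) = (4 / κ) ^ (2 * w + F.card) *
          (((embs H0 F).card : ℝ) * (κ / 4) ^ (2 * w + F.card)) := by
          rw [mul_left_comm, ← mul_pow, div_mul_div_comm, mul_comm 4 κ, div_self (by positivity),
            one_pow, mul_one]
      _ ≤ _ := by
        rw [← h6]
        exact mul_le_mul_of_nonneg_left h5 (by positivity)

end Vale.Agent.P064.Up
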